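import Vale.Agent.P305GM.Acct

/-!
# Steps of the accounting
-/

namespace Vale.Agent.P305BG

open Vale.Agent.P305GM

variable {U Vm al κ cJ c st ls β β' Mt Mt' v p y : ℕ} {w : ℤ}

/-- A smaller credit for losses. -/
theorem acc_beta (h : Acc U Vm al κ w cJ c st ls β Mt) (hb : β' ≤ β) :
    Acc U Vm al κ w cJ c st ls β' Mt := ⟨h.wt, h.vol, by have := h.loss; omega, h.mass⟩

/-- A closed set with `p ≤ y` nodes, `y` inner names and the volume `v` is removed. -/
theorem acc_dead (h : Acc U Vm al κ w cJ c st ls β Mt) (hp : p ≤ y)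
    (hb : β' + U * y ≤ β + al * v + U * p) (hM : Mt' ≤ Mt + al * v) :
    Acc U Vm al κ (w + p - y) (cJ + v) c st (ls + (y - p)) β' Mt' := by
  obtain ⟨d, rfl⟩ := Nat.exists_eq_add_of_le hp
  have h1 := h.loss
  have h2 := h.mass
  rw [Nat.add_sub_cancel_left]
  rw [mul_add] at hb
  refine ⟨by rw [h.wt]; push_cast; ring, h.vol.trans (Nat.le_add_right _ _), ?_, ?_⟩ <;>
    simp only [mul_add] <;> omega

/-- A closed set with one more node than inner names and a large volume `v` is removed. -/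
theorem acc_starve (h : Acc U Vm al κ w cJ c st ls β Mt) (hv : Vm ≤ v)
    (hb : β' ≤ β + al * v + U) (hM : Mt' ≤ Mt + al * v + U) :
    Acc U Vm al κ (w + 1) (cJ + v) c (st + 1) ls β' Mt' := by
  have h0 := h.vol
  have h1 := h.loss
  have h2 := h.mass
  refine ⟨by rw [h.wt]; push_cast; ring, ?_, ?_, ?_⟩ <;> simp only [mul_add, add_mul] <;> omega

/-- Two nodes of the volume `v` are matched. -/
theorem acc_commit (h : Acc U Vm al κ w cJ c st ls β Mt) (hb : β' ≤ β + al * v + 2 * κ)
    (hM : Mt' ≤ Mt + al * v + 2 * U) :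
    Acc U Vm al κ (w + 2) (cJ + v) (c + 1) st ls β' Mt' := by
  have h1 := h.loss
  have h2 := h.mass
  refine ⟨by rw [h.wt]; push_cast; ring, h.vol.trans (Nat.le_add_right _ _), ?_, ?_⟩ <;>
    simp only [mul_add] <;> omega

end Vale.Agent.P305BG
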