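import Vale.Agent.P305N.Defs
import Vale.Agent.P305BL.Defs

/-!
# The arcs of a closed set as a list; dead parts and blossoms in terms of views
-/

namespace Vale.Agent.P305BG

open Vale.Agent.P305E Vale.Agent.P305C Vale.Agent.P305LC Vale.Agent.P305N Vale.Agent.P305BL Finset

/-- The arc with the key `k`, if there is one. -/
def addA (tl : Arr ℕ) (y k : ℕ) (acc : List Tr) : List Tr :=
  if tl.get k = 0 then acc else (tl.get k, k, y) :: acc

/-- The list of the triples (tail, key, head) of all arcs with the head in `Ys`. -/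
def arcsP (tl : Arr ℕ) (Ys : List ℕ) : M (List Tr) :=
  foldM (fun acc y => num (3 * y) >>= fun k0 => num (3 * y + 1) >>= fun k1 =>
    num (3 * y + 2) >>= fun k2 => pure (addA tl y k0 (addA tl y k1 (addA tl y k2 acc)))) [] Ys

@[fun_prop] theorem impl_arcsP {α : Type} [Rep α] {tl : α → Arr ℕ} {Ys : α → List ℕ}
    (h : Pure tl) (h' : Pure Ys) : Impl fun a => arcsP (tl a) (Ys a) := by
  unfold arcsP addA
  fun_prop

/-- `E` lists the arcs with the head in `Ys`. -/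
structure ArcL (tl : ℕ → ℕ) (Ys : List ℕ) (E : List Tr) : Prop where
  mem : ∀ e, e ∈ E ↔ e.2.2 ∈ Ys ∧ e.2.1 / 3 = e.2.2 ∧ tl e.2.1 = e.1 ∧ e.1 ≠ 0
  nodup : E.Nodup

theorem mem_addA {tl : Arr ℕ} {y k : ℕ} {acc : List Tr} {e : Tr} :
    e ∈ addA tl y k acc ↔ (e.2.2 = y ∧ e.2.1 = k ∧ tl.get k = e.1 ∧ e.1 ≠ 0) ∨ e ∈ acc := by
  obtain ⟨p, k', y'⟩ := e
  unfold addA
  split_ifs with h
  · simp only [h]
    exact ⟨Or.inr, fun z => z.resolve_left fun ⟨_, _, a, b⟩ => b a.symm⟩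
  · simp only [List.mem_cons, Prod.mk.injEq]
    refine or_congr_left ⟨?_, ?_⟩
    · rintro ⟨rfl, rfl, rfl⟩
      exact ⟨rfl, rfl, rfl, h⟩
    · rintro ⟨rfl, rfl, rfl, -⟩
      exact ⟨rfl, rfl, rfl⟩

theorem nodup_addA {tl : Arr ℕ} {y k : ℕ} {acc : List Tr} (h : acc.Nodup)
    (h' : ∀ e ∈ acc, e.2.1 ≠ k ∨ e.2.2 ≠ y) : (addA tl y k acc).Nodup := by
  unfold addA
  split_ifs
  · exact h
  · exact List.nodup_cons.2 ⟨fun z => by simpa using h' _ z, h⟩

theorem arcsP_tri {c : Cx} (tl : Arr ℕ) {Ys : List ℕ} (hY : Ys.Nodup)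
    (hB : ∀ y ∈ Ys, 3 * y + 2 ≤ c.B) :
    Tri c (arcsP tl Ys) fun E t => ArcL tl.get Ys E ∧ t ≤ Ys.length := by
  refine Tri.foldM (fun pre E t => ArcL tl.get pre E ∧ t ≤ pre.length)
    ⟨⟨by simp, List.nodup_nil⟩, le_rfl⟩ ?_
  rintro pre y rest E t e ⟨h, ht⟩
  have a := hB y (by simp [e])
  have n : y ∉ pre := fun z => by
    rw [e] at hY
    exact (List.nodup_append.1 hY).2.2 y z y (by simp) rfl
  have n' : ∀ x ∈ E, x.2.2 ≠ y := fun x hx z => n (z ▸ ((h.mem x).1 hx).1)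
  simp only [Tri_bind, Tri_num, Tri_pure, List.length_append, List.length_singleton]
  refine ⟨by omega, by omega, a, ⟨fun x => ?_, ?_⟩, by omega⟩
  · simp only [mem_addA, h.mem, List.mem_append, List.mem_singleton]
    constructor
    · rintro (⟨p, q, r, s⟩ | ⟨p, q, r, s⟩ | ⟨p, q, r, s⟩ | ⟨p, q⟩)
      · exact ⟨Or.inr p, by omega, q ▸ r, s⟩
      · exact ⟨Or.inr p, by omega, q ▸ r, s⟩
      · exact ⟨Or.inr p, by omega, q ▸ r, s⟩
      · exact ⟨Or.inl p, q⟩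
    · rintro ⟨p | p, q, r, s⟩
      · exact Or.inr (Or.inr (Or.inr ⟨p, q, r, s⟩))
      · have : x.2.1 = 3 * y ∨ x.2.1 = 3 * y + 1 ∨ x.2.1 = 3 * y + 2 := by omega
        rcases this with z | z | z
        · exact Or.inl ⟨p, z, z ▸ r, s⟩
        · exact Or.inr (Or.inl ⟨p, z, z ▸ r, s⟩)
        · exact Or.inr (Or.inr (Or.inl ⟨p, z, z ▸ r, s⟩))
  · refine nodup_addA (nodup_addA (nodup_addA h.nodup fun x hx => Or.inr (n' x hx)) ?_) ?_
    · intro x hx
      rcases mem_addA.1 hx with z | z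
      · exact Or.inl (by omega)
      · exact Or.inr (n' x z)
    · intro x hx
      rcases mem_addA.1 hx with z | z
      · exact Or.inl (by omega)
      rcases mem_addA.1 z with z | z
      · exact Or.inl (by omega)
      · exact Or.inr (n' x z)

variable {tl : ℕ → ℕ} {Ys : List ℕ} {E : List Tr}

theorem ArcL.key (h : ArcL tl Ys E) {k : ℕ} (h1 : k / 3 ∈ Ys) (h2 : tl k ≠ 0) :
    (tl k, k, k / 3) ∈ E := (h.mem _).2 ⟨h1, rfl, rfl, h2⟩

/-- At most three arcs per head. -/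
theorem ArcL.len (h : ArcL tl Ys E) : E.length ≤ 3 * Ys.toFinset.card := by
  rw [← List.toFinset_card_of_nodup h.nodup, mul_comm, ← card_range 3, ← card_product]
  refine card_le_card_of_injOn (fun e => (e.2.2, e.2.1 % 3)) (fun e he => ?_) ?_
  · have := (h.mem e).1 (by simpa using he)
    simp only [coe_product, Set.mem_prod, mem_coe, List.mem_toFinset, mem_range]
    exact ⟨this.1, by omega⟩
  · rintro ⟨p, k, y⟩ he ⟨p', k', y'⟩ he' z
    have a := (h.mem _).1 (by simpa using he)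
    have a' := (h.mem _).1 (by simpa using he')
    simp only [Prod.mk.injEq] at a a' z ⊢
    obtain rfl : k = k' := by omega
    exact ⟨a.2.2.1.symm.trans a'.2.2.1, rfl, z.1⟩

theorem ArcL.len' (h : ArcL tl Ys E) : E.length ≤ 3 * Ys.length :=
  h.len.trans (Nat.mul_le_mul_left _ (List.toFinset_card_le _))

variable {V : Vw} {Ps : List ℕ} {b : ℕ}

theorem ArcL.sub (h : ArcL V.tl Ys E) (hc : ClsL V (Ps, Ys)) :
    ∀ e ∈ E, e.1 ∈ Ps ∧ e.2.2 ∈ Ys := fun e he => by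
  obtain ⟨a1, a2, a3, a4⟩ := (h.mem e).1 he
  have := hc.2.2.cl e.2.1 (by simpa [a2] using a1) (by rwa [a3])
  exact ⟨by simpa [a3] using this, a1⟩

theorem len_le_of_lt {l : List ℕ} (h : l.Nodup) (h' : ∀ x ∈ l, 3 * x + 2 < 2 ^ b) :
    3 * l.length ≤ 2 ^ b := by
  have : l.toFinset ⊆ range (2 ^ b / 3) := fun x hx => by
    have := h' x (by simpa using hx)
    exact mem_range.2 (by omega)
  have := card_le_card this
  rw [List.toFinset_card_of_nodup h, card_range] at this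
  omega

theorem clsL_len (hV : V.OK b) (hc : ClsL V (Ps, Ys)) :
    3 * Ps.length ≤ 2 ^ b ∧ 3 * Ys.length ≤ 2 ^ b :=
  ⟨len_le_of_lt hc.1 fun x hx => hV.ltP x (hc.2.2.sP (by simpa using hx)),
    len_le_of_lt hc.2.1 fun x hx => hV.ltI x (hc.2.2.sI (by simpa using hx))⟩

/-- A closed set together with its arcs. -/
structure Piece (V : Vw) (D : Pc) : Prop where
  cls : ClsL V (D.1, D.2.1)
  arc : ArcL V.tl D.2.1 D.2.2

theorem len_le_of_isM {l : List Tr} (h : IsM E l) (hE : ∀ e ∈ E, e.2.2 ∈ Ys) :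
    l.length ≤ Ys.length := by
  have := (List.subperm_of_subset h.2.2 (l₂ := Ys) fun y hy => by
    obtain ⟨e, he, rfl⟩ := List.mem_map.1 hy
    exact hE e (h.1 e he)).length_le
  simpa using this

variable {D L C : Pc} {o o' : ℕ}

/-- The dead part is closed. -/
theorem dead_piece (hc : ClsL V (Ps, Ys)) (h : ArcL V.tl Ys E) (hd : DeadRes Ps Ys E D L) :
    Piece V D := by
  refine ⟨⟨hc.1.sublist hd.subP.1, hc.2.1.sublist hd.subY.1, fun x hx => hc.2.2.sP ?_,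
    fun x hx => hc.2.2.sI ?_, fun k h1 h2 => ?_⟩, fun e => ?_, h.nodup.sublist hd.subE.1⟩
  · simpa using hd.subP.1.subset (by simpa using hx)
  · simpa using hd.subY.1.subset (by simpa using hx)
  · have a : k / 3 ∈ D.2.1 := by simpa using h1
    simpa using hd.closed _ ((hd.arcD _).2 ⟨h.key (hd.subY.1.subset a) h2, a⟩)
  · rw [hd.arcD, h.mem]
    exact ⟨fun z => ⟨z.2, z.1.2⟩, fun z => ⟨⟨hd.subY.1.subset z.1, z.2⟩, z.1⟩⟩

theorem dead_len (hd : DeadRes Ps Ys E D L) : D.1.length ≤ D.2.1.length := by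
  obtain ⟨l, h1, h2⟩ := hd.sat
  exact h2 ▸ len_le_of_isM h1 fun e he => ((hd.arcD e).1 he).2

/-- The blossom is closed after the dead part is removed. -/
theorem blo_piece (hc : ClsL V (Ps, Ys)) (h : ArcL V.tl Ys E) (hd : DeadRes Ps Ys E D L)
    (hb : BloRes L.1 L.2.1 L.2.2 o o' C) (lk : List (ℕ × ℕ)) :
    Piece (V.del D.1.toFinset D.2.1.toFinset lk) C := by
  have hP : ∀ x ∈ C.1, x ∈ Ps ∧ x ∉ D.1 := fun x hx =>
    have a := hd.subP.2.subset (hb.subP x hx)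
    ⟨a, (hd.parP x a).1 (hb.subP x hx)⟩
  have hY : ∀ x ∈ C.2.1, x ∈ Ys ∧ x ∉ D.2.1 := fun x hx =>
    have a := hd.subY.2.subset (hb.subY.subset hx)
    ⟨a, (hd.parY x a).1 (hb.subY.subset hx)⟩
  have hA : ∀ e, e ∈ C.2.2 ↔ e.2.2 ∈ C.2.1 ∧ e.2.1 / 3 = e.2.2 ∧
      (V.del D.1.toFinset D.2.1.toFinset lk).tl e.2.1 = e.1 ∧ e.1 ≠ 0 := fun e => by
    rw [hb.arc, hd.arcL]
    simp only [Vw.del, List.mem_toFinset]
    constructor
    · rintro ⟨⟨a1, a2⟩, a3⟩
      obtain ⟨-, b2, b3, b4⟩ := (h.mem e).1 a1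
      refine ⟨a3, b2, ?_, b4⟩
      rw [b3, if_neg ((hd.parP _ (hd.subP.2.subset a2)).1 a2)]
    · rintro ⟨a1, a2, a3, a4⟩
      split_ifs at a3 with z
      · exact (a4 a3.symm).elim
      have m := (h.mem e).2 ⟨(hY _ a1).1, a2, a3, a4⟩
      exact ⟨⟨m, (hd.parP _ (h.sub hc e m).1).2 (a3 ▸ z)⟩, a1⟩
  refine ⟨⟨hb.nodup, (hc.2.1.sublist hd.subY.2).sublist hb.subY, fun x hx => ?_, fun x hx => ?_,
    fun k h1 h2 => ?_⟩, hA, (h.nodup.sublist hd.subE.2).sublist hb.subE⟩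
  · have := hP x (by simpa using hx)
    exact mem_sdiff.2 ⟨hc.2.2.sP (by simpa using this.1), by simpa using this.2⟩
  · have := hY x (by simpa using hx)
    exact mem_sdiff.2 ⟨hc.2.2.sI (by simpa using this.1), by simpa using this.2⟩
  · have := (hA (_, k, k / 3)).2 ⟨by simpa using h1, rfl, rfl, h2⟩
    rw [← hb.nodes]
    exact List.mem_toFinset.2 (List.mem_map.2 ⟨_, this, rfl⟩)

/-- A closed set of the smaller view together with the removed set is closed. -/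
theorem cls_union {P0 Y0 P1 Y1 : Finset ℕ} {lk : List (ℕ × ℕ)} (h : V.Cls P0 Y0)
    (h' : (V.del P0 Y0 lk).Cls P1 Y1) : V.Cls (P0 ∪ P1) (Y0 ∪ Y1) ∧ Disjoint P0 P1 ∧
      Disjoint Y0 Y1 := by
  refine ⟨⟨union_subset h.sP (h'.sP.trans sdiff_subset), union_subset h.sI
    (h'.sI.trans sdiff_subset), fun k h1 h2 => ?_⟩,
    disjoint_right.2 fun x hx => (mem_sdiff.1 (h'.sP hx)).2,
    disjoint_right.2 fun x hx => (mem_sdiff.1 (h'.sI hx)).2⟩
  by_cases z : V.tl k ∈ P0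
  · exact mem_union_left _ z
  rcases mem_union.1 h1 with h1 | h1
  · exact (z (h.cl k h1 h2)).elim
  · have := h'.cl k h1 (by simpa [Vw.del, z] using h2)
    exact mem_union_right _ (by simpa [Vw.del, z] using this)

theorem blo_len (hY : L.2.1.Nodup) (hb : BloRes L.1 L.2.1 L.2.2 o o' C) :
    C.1.length = C.2.1.length + 1 ∧ o ∈ C.1 ∧ o' ∈ C.1 := by
  have a := hb.blo.card
  have a1 := hb.blo.mem
  have a2 := hb.blo.mem'
  rw [hb.nodes] at a a1 a2
  rw [hb.inns, List.toFinset_card_of_nodup hb.nodup,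
    List.toFinset_card_of_nodup (hY.sublist hb.subY)] at a
  exact ⟨a, by simpa using a1, by simpa using a2⟩

end Vale.Agent.P305BG
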