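import Vale.Agent.P305BG.Plan

/-!
# The bound for the deficiency of closed sets
-/

namespace Vale.Agent.P305BG

open Vale.Agent.P305LC Vale.Agent.P305N Vale.Agent.P305BL Finset

/-- The volume of a pair of sets. -/
def vv (vol : ℕ → ℕ) (Ps Ys : Finset ℕ) : ℕ := ∑ x ∈ Ps, vol x + ∑ x ∈ Ys, vol x

/-- The deficiency of a closed set is bounded by its volume, up to `β`. -/
def Beta (V : Vw) (vol : ℕ → ℕ) (U al β : ℕ) : Prop :=
  ∀ Ps Ys, V.Cls Ps Ys → U * Ys.card ≤ U * Ps.card + al * vv vol Ps Ys + β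

variable {V : Vw} {vol vol' : ℕ → ℕ} {U al al' β β' b κ o o' r : ℕ} {s : NT} {P0 Y0 : Finset ℕ}

theorem vs_vv {D : Pc} (h : D.1.Nodup) (h' : D.2.1.Nodup) :
    vs vol D = vv vol D.1.toFinset D.2.1.toFinset := vs_eq h h'

theorem vv_union {P1 Y1 : Finset ℕ} (h : Disjoint P0 P1) (h' : Disjoint Y0 Y1) :
    vv vol (P0 ∪ P1) (Y0 ∪ Y1) = vv vol P0 Y0 + vv vol P1 Y1 := by
  simp only [vv, sum_union h, sum_union h']
  omega

theorem vv_mono (hc : V.Cls P0 Y0) (h : ∀ x, x ∈ V.I ∨ x ∈ V.P → vol x ≤ vol' x) :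
    vv vol P0 Y0 ≤ vv vol' P0 Y0 :=
  add_le_add (sum_le_sum fun x hx => h x (Or.inr (hc.sP hx)))
    (sum_le_sum fun x hx => h x (Or.inl (hc.sI hx)))

theorem dts_le (hc : V.Cls P0 Y0) (h : ∀ x, x ∈ V.I ∨ x ∈ V.P → V.dt x ≤ al * vol x) :
    V.dts P0 Y0 ≤ al * vv vol P0 Y0 := by
  rw [vv, mul_add, mul_sum, mul_sum]
  exact add_le_add (sum_le_sum fun x hx => h x (Or.inr (hc.sP hx)))
    (sum_le_sum fun x hx => h x (Or.inl (hc.sI hx)))

theorem card_le_vv (hc : V.Cls P0 Y0) (h : ∀ x, x ∈ V.I ∨ x ∈ V.P → 1 ≤ vol x) :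
    P0.card + Y0.card ≤ vv vol P0 Y0 := by
  rw [card_eq_sum_ones, card_eq_sum_ones]
  exact vv_mono (vol := fun _ => 1) hc h

theorem Beta.mono (h : Beta V vol U al β) (ha : al ≤ al') (hb : β ≤ β')
    (hv : ∀ x, x ∈ V.I ∨ x ∈ V.P → vol x ≤ vol' x) : Beta V vol' U al' β' := fun Ps Ys hc =>
  (h Ps Ys hc).trans (add_le_add (Nat.add_le_add_left (Nat.mul_le_mul ha (vv_mono hc hv)) _) hb)

/-- Stable states. -/
theorem Beta.of_dt (hI : Inv b U V s) (h : ∀ x, x ∈ V.I ∨ x ∈ V.P → V.dt x ≤ al * vol x) :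
    Beta V vol U al 0 := fun _ _ hc => (hI.hall hc).trans (Nat.add_le_add_left (dts_le hc h) _)

theorem Beta.mov (h : Beta V vol U al β) (src rest don : List (ℕ × ℕ)) :
    Beta (V.mov src rest don) vol U al β := fun Ps Ys hc => h Ps Ys ⟨hc.sP, hc.sI, hc.cl⟩

/-- A closed set is removed. -/
theorem Beta.del (h : Beta V vol U al β) (hc : V.Cls P0 Y0) (lk : List (ℕ × ℕ))
    (hb : β + al * vv vol P0 Y0 + U * P0.card ≤ β' + U * Y0.card) :
    Beta (V.del P0 Y0 lk) vol U al β' := fun Ps Ys hc' => by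
  obtain ⟨u1, u2, u3⟩ := cls_union hc hc'
  have := h _ _ u1
  rw [card_union_of_disjoint u2, card_union_of_disjoint u3, vv_union u2 u3, mul_add, mul_add,
    mul_add] at this
  omega

/-- The exact form: the deficiency of the removed set is paid. -/
theorem Beta.del' (h : Beta V vol U al β) (hc : V.Cls P0 Y0) (lk : List (ℕ × ℕ)) :
    ∃ β', β' + U * Y0.card = β + al * vv vol P0 Y0 + U * P0.card ∧
      Beta (V.del P0 Y0 lk) vol U al β' := by
  have := h _ _ hc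
  exact ⟨β + al * vv vol P0 Y0 + U * P0.card - U * Y0.card, by omega, h.del hc lk (by omega)⟩

/-- A closed set with one more node than inner names is contracted. -/
theorem Beta.con (h : Beta V vol U al β) (ok : V.OK b) (hc : V.Cls P0 Y0) (hr : r ∈ P0)
    (hk : P0.card = Y0.card + 1) (h1 : vv vol P0 Y0 ≤ vol' r)
    (h2 : ∀ x, x ∈ V.I ∨ x ∈ V.P → x ∉ P0 → x ∉ Y0 → vol x ≤ vol' x) :
    Beta (V.con P0 Y0 r) vol' U al β := fun Ps Ys hc' => by
  have sI : ∀ x ∈ Ys, x ∈ V.I ∧ x ∉ Y0 := fun x hx => mem_sdiff.1 (hc'.sI hx)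
  have sP : ∀ x ∈ Ps, x ≠ r → x ∈ V.P ∧ x ∉ P0 := fun x hx ne =>
    mem_sdiff.1 ((mem_insert.1 (hc'.sP hx)).resolve_left ne)
  have cl : ∀ k, k / 3 ∈ Ys → V.tl k ≠ 0 → (if V.tl k ∈ P0 then r else V.tl k) ∈ Ps :=
    fun k k1 k2 => by
      have := hc'.cl k k1
      simp only [Vw.con, if_neg (sI _ k1).2] at this
      refine this ?_
      split_ifs
      · exact fun e => ok.zP (e ▸ hc.sP hr)
      · exact k2
  have mI : ∑ x ∈ Ys, vol x ≤ ∑ x ∈ Ys, vol' x := sum_le_sum fun x hx =>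
    h2 x (Or.inl (sI x hx).1) (fun y => ok.dis x (sI x hx).1 (hc.sP y)) (sI x hx).2
  have mP : ∑ x ∈ Ps.erase r, vol x ≤ ∑ x ∈ Ps.erase r, vol' x := sum_le_sum fun x hx =>
    have a := sP x (mem_of_mem_erase hx) (ne_of_mem_erase hx)
    h2 x (Or.inr a.1) a.2 fun y => ok.dis x (hc.sI y) a.1
  have sP' : Ps.erase r ⊆ V.P := fun x hx => (sP x (mem_of_mem_erase hx) (ne_of_mem_erase hx)).1
  by_cases m : r ∈ Ps
  · have d1 : Disjoint P0 (Ps.erase r) := disjoint_right.2 fun x hx =>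
      (sP x (mem_of_mem_erase hx) (ne_of_mem_erase hx)).2
    have d2 : Disjoint Y0 Ys := disjoint_right.2 fun x hx => (sI x hx).2
    have := h (P0 ∪ Ps.erase r) (Y0 ∪ Ys) ⟨union_subset hc.sP sP',
      union_subset hc.sI fun x hx => (sI x hx).1, fun k k1 k2 => by
        by_cases z : V.tl k ∈ P0
        · exact mem_union_left _ z
        rcases mem_union.1 k1 with k1 | k1
        · exact (z (hc.cl k k1 k2)).elim
        · have := cl k k1 k2
          rw [if_neg z] at this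
          exact mem_union_right _ (mem_erase.2 ⟨fun e => z (e ▸ hr), this⟩)⟩
    rw [card_union_of_disjoint d1, card_union_of_disjoint d2, vv_union d1 d2, hk] at this
    have e1 := card_erase_add_one m
    have e2 := add_sum_erase Ps vol' m
    have e3 : vv vol P0 Y0 + vv vol (Ps.erase r) Ys ≤ vv vol' Ps Ys := by unfold vv at *; omega
    have e4 := Nat.mul_le_mul_left al e3
    rw [← e1]
    simp only [mul_add] at this e4 ⊢
    omega
  · rw [erase_eq_of_notMem m] at mP sP'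
    have := h Ps Ys ⟨sP', fun x hx => (sI x hx).1, fun k k1 k2 => by
      have := cl k k1 k2
      split_ifs at this
      · exact (m this).elim
      · exact this⟩
    have e4 := Nat.mul_le_mul_left al (show vv vol Ps Ys ≤ vv vol' Ps Ys from add_le_add mP mI)
    omega

/-- The two ends of a bridge are removed after a successful test. -/
theorem Beta.commit (h : Succ V U κ o o') (ho : o ∈ V.P) (ho' : o' ∈ V.P) (hne : o ≠ o')
    (hd : ∀ x, x ∈ V.I ∨ x ∈ V.P → V.dt x ≤ al' * vol x) (hp : ∀ x, x ∈ V.I ∨ x ∈ V.P → 1 ≤ vol x)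
    (ha : al' + κ ≤ al) (lk : List (ℕ × ℕ)) :
    Beta (V.del {o, o'} ∅ lk) vol U al (al * (vol o + vol o')) := fun Ps Ys hc' => by
  obtain ⟨u1, u2, u3⟩ := cls_union (Vw.Cls.outer (Ps := {o, o'}) (by
    simp [insert_subset_iff, ho, ho'])) hc'
  have a := h _ _ u1
  have a1 := dts_le u1 hd
  have a2 := Nat.mul_le_mul_left κ (card_le_vv u1 hp)
  have a3 := Nat.mul_le_mul_right (vv vol ({o, o'} ∪ Ps) (∅ ∪ Ys)) ha
  have e : ends o o' ({o, o'} ∪ Ps) = 2 := by simp [ends]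
  have e' : vv vol ({o, o'} ∪ Ps) (∅ ∪ Ys) = vol o + vol o' + vv vol Ps Ys := by
    rw [vv_union u2 u3, vv, sum_pair hne, sum_empty, add_zero]
  rw [add_mul] at a3
  rw [e] at a
  have e2 : ({o, o'} ∪ Ps).card = 2 + Ps.card := by rw [card_union_of_disjoint u2, card_pair hne]
  have e3 : U * ({o, o'} ∪ Ps).card = U * 2 + U * Ps.card := by rw [e2, mul_add]
  have e4 : al * vv vol ({o, o'} ∪ Ps) (∅ ∪ Ys) = al * (vol o + vol o') + al * vv vol Ps Ys := by
    rw [e', mul_add]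
  have e5 : (∅ ∪ Ys).card = Ys.card := by rw [empty_union]
  rw [e5] at a a2
  omega

end Vale.Agent.P305BG
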