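import Vale.Agent.P305GL.Defs
import Vale.Agent.P305BG.Beta
import Vale.Agent.P305BL.Bloss

/-!
# The block BRIDGE
-/

namespace Vale.Agent.P305BG

open Vale.Agent.P305E Vale.Agent.P305C Vale.Agent.P305LC Vale.Agent.P305N Vale.Agent.P305BL
  Vale.Agent.P305GL Finset
open Vale.Agent.P305FL (PL Lev pot)

variable {β : Type} [Rep β]

/-- The final merge. -/
def fin (fl : Pr → S → Arr PL → PL → M (S × Arr PL)) (p : Pr) (s : S) (lv : Arr PL) (src : PL)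
    (bx : β) : M (Fs β) := fl p s lv src >>= fun r => pure (r.1, r.2, bx)

/-- What happens after the dead part was removed. -/
def rest (pr : Pr → S → Pc → M (S × PL)) (cn : Pr → S → Pc → ℕ → ℕ → M S)
    (sl : Pr → S → List ℕ → β → M β) (fl : Pr → S → Arr PL → PL → M (S × Arr PL)) (p : Pr)
    (a : S × PL) (lv : Arr PL) (bx : β) (u u' : ℕ) (z : Pc × Bool) : M (Fs β) :=
  if z.2 = true then pr p a.1 z.1 >>= fun a' => appendP a'.2 a.2 >>= fun l => fin fl p a'.1 lv l bx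
  else cn p a.1 z.1 u u' >>= fun s => sl p s z.1.2.1 bx >>= fun bx' => fin fl p s lv a.2 bx'

/-- The program. -/
def bridge (E : Env β) (pr : Pr → S → Pc → M (S × PL)) (cm : Pr → S → ℕ → ℕ → M (S × PL))
    (cn : Pr → S → Pc → ℕ → ℕ → M S) (sl : Pr → S → List ℕ → β → M β)
    (fl : Pr → S → Arr PL → PL → M (S × Arr PL)) (p : Pr) (σ : Fs β) (u u' : ℕ) : M (Fs β) :=
  plan E.N E.bm p.b p.U p.Vm σ.1.ns σ.1.sz.get (σ.1.own.get u) (σ.1.own.get u') >>= fun r =>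
    r.elim (cm p σ.1 u u' >>= fun q => fin fl p q.1 σ.2.1 q.2 σ.2.2) fun q =>
      pr p σ.1 q.1 >>= fun a =>
        q.2.elim (fin fl p a.1 σ.2.1 a.2 σ.2.2) (rest pr cn sl fl p a σ.2.1 σ.2.2 u u')

variable {E : Env β} {pr : Pr → S → Pc → M (S × PL)} {cm : Pr → S → ℕ → ℕ → M (S × PL)}
  {cn : Pr → S → Pc → ℕ → ℕ → M S} {sl : Pr → S → List ℕ → β → M β}
  {fl : Pr → S → Arr PL → PL → M (S × Arr PL)}

theorem impl_fin (hf : FlushOK E fl) {α : Type} [Rep α] {p : α → Pr} {s : α → S} {lv : α → Arr PL}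
    {src : α → PL} {bx : α → β} (h1 : Pure p) (h2 : Pure s) (h3 : Pure lv) (h4 : Pure src)
    (h5 : Pure bx) : Impl fun a => fin fl (p a) (s a) (lv a) (src a) (bx a) := by
  unfold fin
  exact Impl.bind (hf.impl.comp (g := fun a => (p a, s a, lv a, src a)) (by fun_prop)) (by fun_prop)

theorem impl_bridge (hp : PruneOK E pr) (hc : CommitOK E cm) (hn : ContractOK E cn)
    (hs : SlotsOK E sl) (hf : FlushOK E fl) : Impl fun p : Pr × Fs β × ℕ × ℕ =>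
      bridge E pr cm cn sl fl p.1 p.2.1 p.2.2.1 p.2.2.2 := by
  unfold bridge rest
  refine Impl.bind (impl_plan E.hN E.hB.impl (by fun_prop) (by fun_prop) (by fun_prop)
    (by fun_prop) (by fun_prop) (by fun_prop) (by fun_prop)) (Impl.optElim (by fun_prop) ?_ ?_)
  · exact Impl.bind (hc.impl.comp (g := fun a => (_, _, _, _)) (by fun_prop)) (impl_fin hf
      (by fun_prop) (by fun_prop) (by fun_prop) (by fun_prop) (by fun_prop))
  refine Impl.bind (hp.impl.comp (g := fun a => (_, _, _)) (by fun_prop))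
    (Impl.optElim (by fun_prop) (impl_fin hf (by fun_prop) (by fun_prop) (by fun_prop)
      (by fun_prop) (by fun_prop)) (Impl.ite (PPred.of_bool (by fun_prop)) ?_ ?_))
  · exact Impl.bind (hp.impl.comp (g := fun a => (_, _, _)) (by fun_prop)) (Impl.bind
      (by fun_prop) (impl_fin hf (by fun_prop) (by fun_prop) (by fun_prop) (by fun_prop)
      (by fun_prop)))
  · exact Impl.bind (hn.impl.comp (g := fun a => (_, _, _, _, _)) (by fun_prop)) (Impl.bind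
      (hs.impl.comp (g := fun a => (_, _, _, _)) (by fun_prop)) (impl_fin hf (by fun_prop)
      (by fun_prop) (by fun_prop) (by fun_prop) (by fun_prop)))

variable {x : Pm} {s : S} {g : Gs} {cur : Option ℕ} {lv : Arr PL} {src : PL} {bx : β}
  {Mt φb : ℕ}

theorem fin_vt (hf : FlushOK E fl) (ok : x.OK E) (h : Core x s g cur [])
    (hl : Lev x.b x.D (fv s g) lv.get src Mt) (hM : Mt + tot src ≤ bud x s g)
    (hp : ∀ q ∈ src, 0 < q.2) (hb : E.I x.B x.b 1 g.H.G bx φb) :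
    Vt x.b x.B (fin fl x.toPr s lv src bx) fun σ t => ∃ g' φ', Good E x σ g' cur φ' ∧
      g'.H.G = g.H.G ∧ t + φ' ≤ φb + x.La * s.psi x + x.Cf * pot x.b lv.get +
        x.La * x.U * (x.c - s.cm) + x.Γ ^ 5 * (tot src + 1) := by
  refine (hf.spec x s g cur lv src Mt ok h hl hM hp).bind fun r t ⟨g', a1, a2, a3, a4, a5⟩ => ?_
  refine Vt.pure ⟨g', _, ⟨a1, a4, φb, a2 ▸ hb, rfl⟩, a2, ?_⟩
  dsimp only
  rw [a3]
  omega

theorem sum_sz (h : Core x s g cur []) {T : Finset ℕ} (hT : ∀ y ∈ T, y ∈ g.V.I ∨ y ∈ g.V.P) :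
    ∑ y ∈ T, s.sz.get y ≤ x.n := by
  have a : ∀ y ∈ T, s.sz.get y = ((range x.n).filter fun v => s.own.get v = y).card :=
    fun y hy => by
      obtain ⟨m1, m2, m3⟩ := h.mem y (hT y hy)
      rw [m3, ← List.toFinset_card_of_nodup m1]
      refine congrArg card (Finset.ext fun v => ?_)
      rw [List.mem_toFinset, m2, mem_filter, mem_range]
      refine ⟨fun e => ⟨(h.own v fun z => ?_).1, e⟩, And.right⟩
      rw [e] at z
      exact (hT y hy).elim (fun k => h.net.ok.zI (z ▸ k)) fun k => h.net.ok.zP (z ▸ k)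
  rw [sum_congr rfl a, sum_card_fiberwise_eq_card_filter]
  exact (card_filter_le _ _).trans (card_range _).le

theorem pw (ok : x.OK E) (k v : ℕ) : 1000 * (x.Γ ^ k * v) ≤ x.Γ ^ (k + 1) * v := by
  rw [← mul_assoc, pow_succ']
  exact Nat.mul_le_mul_right _ (Nat.mul_le_mul_right _ ok.big)

theorem pw' (ok : x.OK E) {k j : ℕ} (h : k < j) (v : ℕ) : 1000 * (x.Γ ^ k * v) ≤ x.Γ ^ j * v :=
  (pw ok k v).trans (Nat.mul_le_mul_right _
    (Nat.pow_le_pow_right (by have := ok.big; omega) h))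

theorem stab (ok : x.OK E) (h : Core x s g cur []) (hl : Lev x.b x.D (fv s g) lv.get [] Mt) :
    (∀ y, y ∈ g.V.I ∨ y ∈ g.V.P → g.V.dt y ≤ x.b * x.D * s.sz.get y) ∧
      Stab g.V s.sz.get (x.Γ ^ 4) x.B ∧ Stab g.V s.sz.get x.al x.B := by
  have a : ∀ y, y ∈ g.V.I ∨ y ∈ g.V.P → g.V.dt y ≤ x.b * x.D * s.sz.get y := fun y hy => by
    simpa [fv] using hl.dt_le (x := y) (mem_union.2 hy)
  have a1 : x.b * x.D ≤ x.Γ ^ 4 := by
    rw [Pm.D, pow_succ' x.Γ 3]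
    exact Nat.mul_le_mul_right _ (by have := ok.bG; omega)
  have a2 : x.Γ ^ 4 ≤ x.al := Nat.pow_le_pow_right (by have := ok.big; omega) (by norm_num)
  have p : ∀ y, y ∈ g.V.I ∨ y ∈ g.V.P → 1 ≤ s.sz.get y := fun y hy => by
    obtain ⟨-, m2, m3⟩ := h.mem y hy
    exact m3 ▸ List.length_pos_of_mem ((m2 _).2 (h.self y hy).1)
  have q : ∑ y ∈ g.V.P, s.sz.get y + ∑ y ∈ g.V.I, s.sz.get y ≤ x.B := by
    have b1 := sum_sz h (T := g.V.P) fun _ => Or.inr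
    have b2 := sum_sz h (T := g.V.I) fun _ => Or.inl
    have b3 := ok.sz
    have b4 : 2 ^ x.b ≤ 4 ^ (x.b + 2) :=
      (Nat.pow_le_pow_left (by norm_num) _).trans (Nat.pow_le_pow_right (by norm_num) (by omega))
    have := ok.wd
    omega
  exact ⟨a, ⟨fun y hy => (a y hy).trans (Nat.mul_le_mul_right _ a1), p, q⟩,
    ⟨fun y hy => (a y hy).trans (Nat.mul_le_mul_right _ (a1.trans a2)), p, q⟩⟩

theorem splOK (ok : x.OK E) : SplOK E.bm x.B x.b x.Γ :=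
  ⟨fun _ _ _ h1 h2 h3 _ _ h6 => (dead_vt E.hB ok.wB le_rfl h1 h2 h3 (by omega)).mono
      fun _ _ h => ⟨h.1, h.2.trans (Nat.mul_le_mul_left _ ok.gB)⟩,
    fun _ _ _ _ _ h1 h2 h3 h4 h5 h6 h7 h8 _ _ h9 =>
      (bloss_vt E.hB ok.wB le_rfl h1 h2 h3 h4 h5 h6 h7 h8 (by omega)).mono
        fun _ _ h => ⟨h.1, h.2.trans (Nat.mul_le_mul_left _ ok.gB)⟩⟩

theorem g2_le (ok : x.OK E) : 20 * (E.gN x.b + 1) * (x.Γ + 1) ≤ 80 * x.Γ ^ 2 := by
  have := ok.gN
  have := ok.big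
  calc _ ≤ 20 * (2 * x.Γ) * (2 * x.Γ) := Nat.mul_le_mul (Nat.mul_le_mul_left _ (by omega)) (by omega)
    _ = _ := by ring

theorem pay (ok : x.OK E) {W v t : ℕ} (h : W ≤ 8 * (E.gN x.b + x.al + 1) * v)
    (ht : t ≤ W * (20 * (E.gN x.b + 1) * (x.Γ + 1))) : t ≤ x.Γ ^ 8 * v := by
  have a := pw' ok (show 1 < 5 by norm_num) 1
  have := ok.gN
  have := ok.big
  have b : 8 * (E.gN x.b + x.al + 1) ≤ 10 * x.Γ ^ 5 := by
    unfold Pm.al
    simp only [pow_one, mul_one] at a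
    omega
  calc t ≤ 10 * x.Γ ^ 5 * v * (80 * x.Γ ^ 2) :=
        ht.trans (Nat.mul_le_mul (h.trans (Nat.mul_le_mul_right _ b)) (g2_le ok))
    _ = 800 * (x.Γ ^ 7 * v) := by ring
    _ ≤ _ := le_trans (by omega) (pw ok 7 v)

theorem succ_mono {V : Vw} {U κ κ' o o' : ℕ} (h : Succ V U κ o o') (e : κ ≤ κ') :
    Succ V U κ' o o' := fun Ps Ys hc => by
  have := h Ps Ys hc
  have := Nat.mul_le_mul_right (Ps.card + Ys.card) e
  omega

theorem dts_del {V : Vw} {P0 Y0 P1 Y1 : Finset ℕ} {L : PL} :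
    (V.del P0 Y0 L).dts P1 Y1 ≤ V.dts P1 Y1 + 2 * tot L := by
  have a := sum_ms_le L P1
  have b := sum_ms_le L Y1
  simp only [Vw.dts, Vw.del, sum_add_distrib]
  omega

theorem BloP.mat {V : Vw} {o o' : ℕ} {D C : Pc} (h : BloP V o o' D C) :
    ∃ l, IsM C.2.2 l ∧ l.length + 1 = C.1.length ∧ l.length + 0 = C.2.1.length := by
  obtain ⟨l, h1, h2, h3, h4⟩ := hall_gen C.2.2 (fun e => e.1) (fun e => e.2.2) (P305BL.inns C.2.2) 0
    fun Y hY => by
      rcases Y.eq_empty_or_nonempty with rfl | hn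
      · simp
      · exact (Nat.le_succ _).trans (h.blo.surplus Y hY hn)
  have p := h.pc []
  have a := len_le_of_isM ⟨h1, h2, h3⟩ fun e he => (p.arc.sub p.cls e he).2
  rw [h.inns, List.toFinset_card_of_nodup p.cls.2.1] at h4
  have := h.len
  dsimp only at h4
  exact ⟨l, ⟨h1, h2, h3⟩, by omega, by omega⟩

theorem cost (ok : x.OK E) (v : ℕ) : 1000 * (x.Γ ^ 2 * v) ≤ x.La * v ∧
    1000 * (x.Γ ^ 8 * v) ≤ x.La * v ∧ 1000 * (x.Γ ^ 5 * (x.Γ ^ 4 * v)) ≤ x.La * v ∧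
    1000 * (x.Γ ^ 5 * v) ≤ x.La * v ∧ 1000 * (x.Γ ^ 4 * v) ≤ x.al * v ∧
    (1 ≤ v → 1000 * x.Γ ≤ x.La * v ∧ 1000 * x.Γ ^ 2 ≤ x.La * v ∧ 1000 * x.Γ ^ 5 ≤ x.La * v) := by
  refine ⟨pw' ok (by norm_num) v, pw' ok (by norm_num) v, ?_, pw' ok (by norm_num) v, pw ok 4 v,
    fun h => ?_⟩
  · rw [← mul_assoc (x.Γ ^ 5), ← pow_add]
    exact pw' ok (by norm_num) v
  · have a : ∀ k < 12, 1000 * x.Γ ^ k ≤ x.La * v := fun k hk =>
      (Nat.mul_le_mul_left _ (Nat.le_mul_of_pos_right _ h)).trans (pw' ok hk v)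
    exact ⟨by simpa using a 1 (by norm_num), a 2 (by norm_num), a 5 (by norm_num)⟩

theorem bud_rem {D : Pc} {s' : S} {g' : Gs} {L : PL} {e k : ℕ} (h : Rem x s g D s' g' L)
    (h1 : g'.st = g.st + e) (h2 : s'.cm = s.cm + k) :
    bud x s' g' = bud x s g + 2 * x.U * k + x.U * e + x.al * vs s.sz.get D := by
  simp only [bud, h.vj, h1, h2]
  ring

theorem rest_vt (hp : PruneOK E pr) (hn : ContractOK E cn) (hs : SlotsOK E sl) (hf : FlushOK E fl)
    (ok : x.OK E) {V : Vw} {D : Pc} {z : Pc × Bool} {u u' d : ℕ} (h : Core x s g cur [])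
    (hl : Lev x.b x.D (fv s g) lv.get src Mt) (hV : g.V = V.del D.1.toFinset D.2.1.toFinset src)
    (hM : Mt + 3 * (x.Γ ^ 4 * d) ≤ bud x s g) (ht : tot src ≤ x.Γ ^ 4 * d)
    (hq : ∀ q ∈ src, 0 < q.2) (hb : E.I x.B x.b 1 g.H.G bx φb)
    (bC : BloP V (s.own.get u) (s.own.get u') D z.1) (hne : s.own.get u ≠ s.own.get u')
    (hA : x.A u u') (hd : V.dts z.1.1.toFinset z.1.2.1.toFinset ≤ x.Γ ^ 4 * vs s.sz.get z.1)
    (hv : 2 ≤ vs s.sz.get z.1) (hz : z.2 = true → x.Vm ≤ vs s.sz.get z.1) :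
    Vt x.b x.B (rest pr cn sl fl x.toPr (s, src) lv bx u u' z) fun σ t => ∃ g' φ' w,
      Good E x σ g' cur φ' ∧ g'.H.G.scn = g.H.G.scn ∧ 1 ≤ w ∧
      (if z.2 = true then vs s.sz.get z.1 ≤ w else ct z.1 ≤ w + 1) ∧
      2 * (t + φ') + x.La * w ≤ 2 * (φb + x.La * s.psi x + x.Cf * pot x.b lv.get +
        x.La * x.U * (x.c - s.cm)) + x.La * d := by
  obtain ⟨C, big⟩ := z
  dsimp only at bC hd hv hz ⊢
  have pC : Piece g.V C := hV ▸ bC.pc src
  obtain ⟨-, -, d3, -, -, -⟩ := cost ok d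
  have d4 := pw' ok (show 4 < 12 by norm_num) d
  refine Vt.ite (fun y => ?_) fun y => ?_
  · refine (hp.spec x s g cur C 1 0 ok h pC bC.mat (Or.inr rfl) (by simpa using hz y)).bind ?_
    rintro ⟨s', L⟩ t ⟨g', a1, a2, a3, a4, a5⟩
    obtain ⟨c1, -, c3, -, c5, c6⟩ := cost ok (vs s.sz.get C)
    obtain ⟨c7, c8, c9⟩ := c6 (by omega)
    have c4 := pw' ok (show 4 < 12 by norm_num) (vs s.sz.get C)
    have b1 := bud_rem (k := 0) a2 a3 a4
    have b2 := a2.tot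
    have b3 := dts_del (V := V) (P0 := D.1.toFinset) (Y0 := D.2.1.toFinset) (P1 := C.1.toFinset)
      (Y1 := C.2.1.toFinset) (L := src)
    have b4 := length_le_tot fun q hq => (a2.lack q hq).2.2
    have b5 := Nat.mul_le_mul_left x.La a2.psi
    have b6 : x.U ≤ 8 * (x.Γ ^ 5 * vs s.sz.get C) :=
      ok.V2.trans (by rw [← mul_assoc]; exact Nat.mul_le_mul_left _ (hz y))
    have b7 := pw' ok (show 5 < 12 by norm_num) (vs s.sz.get C)
    have b8 := pw' ok (show 10 < 12 by norm_num) (vs s.sz.get C)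
    rw [← hV] at b3
    rw [bC.len, mul_add] at b2
    dsimp only at *
    refine Vt.tbind' ((Tri_appendP _ _ _).2 ((fin_vt hf ok a1 (a2.lev _ _ _ _ _ hl) ?_
      (fun q hq' => (List.mem_append.1 hq').elim (fun k => (a2.lack q k).2.2) (hq q))
      (a2.G ▸ hb)).mono ?_))
    · rw [tot_append]
      clear * - hM ht hd b1 b2 b3 c5
      omega
    rintro σ t' ⟨g'', φ', e1, e2, e3⟩
    refine ⟨g'', φ', vs s.sz.get C, e1, by rw [e2, a2.G], by omega, by rw [if_pos y], ?_⟩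
    have k : x.Γ ^ 5 * (tot (L ++ src) + 1) ≤ x.Γ ^ 5 * (8 * (x.Γ ^ 5 * vs s.sz.get C) +
        x.Γ ^ 4 * vs s.sz.get C + 3 * (x.Γ ^ 4 * d) + 1) :=
      Nat.mul_le_mul_left _ (by rw [tot_append]; clear * - ht hd b2 b3 b6; omega)
    have k0 : 1000 * L.length ≤ 20 * (x.Γ ^ 12 * vs s.sz.get C) + 2 * (x.Γ ^ 12 * d) := by
      clear * - ht hd b2 b3 b6 b4 b7 c4 d4
      omega
    have k' : x.Γ ^ 5 * (8 * (x.Γ ^ 5 * vs s.sz.get C) + x.Γ ^ 4 * vs s.sz.get C +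
        3 * (x.Γ ^ 4 * d) + 1) = 8 * (x.Γ ^ 10 * vs s.sz.get C) +
        x.Γ ^ 5 * (x.Γ ^ 4 * vs s.sz.get C) + 3 * (x.Γ ^ 5 * (x.Γ ^ 4 * d)) + x.Γ ^ 5 := by ring
    rw [a4] at e3
    rw [mul_add] at a5 b5
    rw [k'] at k
    unfold Pm.La at *
    clear * - e3 a5 b5 k k0 c1 c3 c8 c9 b8 d3
    omega
  · refine (hn.spec x s g cur C u u' ok h pC bC.nodes bC.inns bC.blo hne hA).bind ?_
    rintro s' t ⟨g', w, a1, a2, a3, a4, a5, a6, a7, a8⟩
    refine (hs.spec x s' g' cur C.2.1 bx φb ok a1 (a2 ▸ hb)).bind ?_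
    rintro bx' t' ⟨H', φ', b1, b2, b3, b4⟩
    refine (fin_vt hf ok b1 (Mt := Mt) (a5 _ _ _ _ _ hl) ?_ hq b2).mono ?_
    · show _ ≤ bud x s' g'
      omega
    rintro σ t'' ⟨g'', φ'', e1, e2, e3⟩
    have l1 := bC.len
    have l2 := bC.two
    have l3 : C.2.1.length + 1 ≤ w := by unfold ct at a7; omega
    obtain ⟨c1, -, -, -, -, c6⟩ := cost ok w
    obtain ⟨c7, c8, c9⟩ := c6 (by omega)
    refine ⟨g'', φ'', w, e1, by rw [e2, b3, a2], by omega, by rw [if_neg y]; exact a7, ?_⟩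
    have k := Nat.mul_le_mul_left (x.Γ ^ 2) l3
    have k1 := Nat.mul_le_mul_left x.La a6
    have k2 := Nat.mul_le_mul_left (x.Γ ^ 5) (Nat.add_le_add_right ht 1)
    rw [a3] at e3
    rw [mul_add] at k1
    rw [mul_add _ _ 1, mul_add _ _ 1] at k2
    rw [mul_add _ _ 1] at e3
    clear * - e3 k k1 k2 a8 b4 c1 c9 d3
    omega

theorem bridge_ok (hp : PruneOK E pr) (hc : CommitOK E cm) (hn : ContractOK E cn)
    (hs : SlotsOK E sl) (hf : FlushOK E fl) : BridgeOK E (bridge E pr cm cn sl fl) := by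
  refine ⟨impl_bridge hp hc hn hs hf, ?_⟩
  rintro x ⟨s, lv, bx⟩ g cur φ u u' ok ⟨h, ⟨Mt, hM, hl⟩, φb, hb, rfl⟩ ho ho' hne hA hcm
  dsimp only at h hM hl hb ho ho' hne hcm ⊢
  obtain ⟨s0, s4, s5⟩ := stab ok h hl
  obtain ⟨j, hj⟩ := ok.pow
  have wd : 2 ^ x.b ≤ x.B := le_trans ((Nat.pow_le_pow_left (by norm_num) _).trans
    (Nat.pow_le_pow_right (by norm_num) (by omega))) ok.wd
  refine (plan_vt E.hN (splOK ok) h.net s5 (fun p hp => by
    simpa [fv] using hl.dt_lt (x := p) (mem_union_right _ hp)) wd ok.wN hj ok.V1 ok.V2 ho ho'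
    hne).bind ?_
  rintro (_ | ⟨D, z⟩) t hr
  · obtain ⟨r1, r2⟩ := hr
    refine (hc.spec x s g cur u u' ok h ho ho' hne hA hcm (succ_mono r1 ok.gN) s0).bind ?_
    rintro ⟨s', L⟩ t' ⟨g', a1, a2, a3, a4, a5⟩
    dsimp only at a1 a2 a4 ⊢
    have b1 := bud_rem (e := 0) a2 a3 a4
    have b2 := a2.tot
    have b3 := (s4.facts (D := ([s.own.get u, s.own.get u'], [], [])) (by simp [hne]) (by simp)
      (by simp [insert_subset_iff, ho, ho']) (by simp)).1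
    have b5 := Nat.mul_le_mul_left x.La a2.psi
    have e : vs s.sz.get ([s.own.get u, s.own.get u'], [], []) =
        s.sz.get (s.own.get u) + s.sz.get (s.own.get u') := by simp [vs]
    rw [e] at b1 b3 b5
    dsimp only at b2 b3
    generalize s.sz.get (s.own.get u) + s.sz.get (s.own.get u') = v at *
    obtain ⟨c1, -, c3, -, c5, -⟩ := cost ok v
    obtain ⟨d1, -, -, d4, -, d6⟩ := cost ok x.U
    obtain ⟨d7, d8, d9⟩ := d6 h.net.upos
    simp only [List.length_cons, List.length_nil, mul_zero, add_zero, zero_add] at b1 b2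
    refine (fin_vt hf ok a1 (Mt := Mt) (by simpa using a2.lev _ _ _ _ _ hl)
      (by clear * - hM b1 b2 b3 c5; omega)
      (fun q hq => (a2.lack q hq).2.2) (a2.G ▸ hb)).mono ?_
    rintro σ t'' ⟨g'', φ', e1, e2, e3⟩
    refine ⟨g'', φ', e1, by rw [e2, a2.G], ?_⟩
    have k : x.Γ ^ 5 * (tot L + 1) ≤ x.Γ ^ 5 * (2 * x.U + x.Γ ^ 4 * v + 1) :=
      Nat.mul_le_mul_left _ (by clear * - b2 b3; omega)
    have k' : x.Γ ^ 5 * (2 * x.U + x.Γ ^ 4 * v + 1) =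
      2 * (x.Γ ^ 5 * x.U) + x.Γ ^ 5 * (x.Γ ^ 4 * v) + x.Γ ^ 5 := by ring
    have k1 : t ≤ 80 * (x.Γ ^ 2 * x.U) :=
      r2.trans ((Nat.mul_le_mul_left _ (g2_le ok)).trans (le_of_eq (by ring)))
    have k2 : x.La * x.U * (x.c - s.cm) = x.La * x.U * (x.c - (s.cm + 1)) + x.La * x.U := by
      rw [← Nat.mul_succ]
      congr 1
      omega
    rw [a4] at e3
    rw [mul_add] at a5 b5
    rw [k'] at k
    clear * - e3 a5 b5 k k1 k2 c1 c3 d1 d4 d7 d8 d9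
    omega
  obtain ⟨W, ⟨dD, r1⟩, r2⟩ := hr
  dsimp only at dD r1
  have c := dD.pc.cls
  obtain ⟨f1, f2, -⟩ := s4.facts (D := D) c.1 c.2.1 c.2.2.sP c.2.2.sI
  have dl := dD.le
  refine (hp.spec x s g cur D 0 (D.2.1.length - D.1.length) ok h dD.pc
    (dD.sat.imp fun l hl => ⟨hl.1, hl.2, by have := hl.2; omega⟩) (Or.inl rfl) (by simp)).bind ?_
  rintro ⟨s', L⟩ t' ⟨g', a1, a2, a3, a4, a5⟩
  have b1 := bud_rem (k := 0) a2 a3 a4
  have b2 : tot L ≤ x.Γ ^ 4 * vs s.sz.get D := by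
    have := a2.tot
    have := Nat.mul_le_mul_left x.U dl
    dsimp only at *
    omega
  have b5 := Nat.mul_le_mul_left x.La a2.psi
  have l' : Lev x.b x.D (fv s' g') lv.get L Mt := by simpa using a2.lev _ _ _ _ _ hl
  obtain ⟨c1, c2, c3, -, c5, c6⟩ := cost ok (vs s.sz.get D)
  dsimp only at a1 a4 a5 b1 b5
  rw [mul_add] at a5 b5
  rcases z with _ | z
  · obtain ⟨c7, c8, c9⟩ := c6 (by have := r1.1; omega)
    have k := pay ok r1.2 r2
    refine (fin_vt hf ok a1 l' (by clear * - hM b1 b2 c5; omega) (fun q hq => (a2.lack q hq).2.2) (a2.G ▸ hb)).mono ?_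
    rintro σ t'' ⟨g'', φ', e1, e2, e3⟩
    refine ⟨g'', φ', e1, by rw [e2, a2.G], ?_⟩
    have k2 := Nat.mul_le_mul_left (x.Γ ^ 5) (Nat.add_le_add_right b2 1)
    rw [mul_add _ _ 1, mul_add _ _ 1] at k2
    rw [a4, mul_add _ _ 1] at e3
    clear * - e3 a5 b5 k k2 c1 c2 c3 c7 c8 c9
    omega
  obtain ⟨bC, -, r3⟩ := r1
  have c' := (bC.pc []).cls
  obtain ⟨u1, u2, -⟩ := cls_union c.2.2 c'.2.2
  obtain ⟨g1, g2, -⟩ := s4.facts (D := z.1) c'.1 c'.2.1 (subset_union_right.trans u1.sP)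
    (subset_union_right.trans u1.sI)
  have keep : ∀ v, s.own.get v ∈ z.1.1 → s'.own.get v = s.own.get v := fun v hv => by
    have m := List.mem_toFinset.2 hv
    rw [a2.own, if_neg]
    rintro (k | k)
    · exact disjoint_left.1 u2 (List.mem_toFinset.2 k) m
    · exact h.net.ok.dis _ (c.2.2.sI (List.mem_toFinset.2 k)) (u1.sP (mem_union_right _ m))
  have sz : s'.sz = s.sz := a2.same.2.2.1
  have two := bC.two
  refine (rest_vt hp hn hs hf ok (d := vs s.sz.get D) a1 l' a2.V (by clear * - hM b1 c5; omega) b2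
    (fun q hq => (a2.lack q hq).2.2) (a2.G ▸ hb) (by rwa [keep u bC.mem.1, keep u' bC.mem.2])
    (by rwa [keep u bC.mem.1, keep u' bC.mem.2]) hA (by rwa [sz]) (by rw [sz]; unfold ct at g2; omega)
    fun y => by rw [sz]; exact (if_pos y ▸ r3).1).mono ?_
  rintro σ t'' ⟨g'', φ', w, e1, e2, e4, e5, e3⟩
  refine ⟨g'', φ', e1, by rw [e2, a2.G], ?_⟩
  obtain ⟨-, d2, -, -, -, d6⟩ := cost ok w
  obtain ⟨d7, d8, -⟩ := d6 e4
  have k : t ≤ x.Γ ^ 8 * vs s.sz.get D + x.Γ ^ 8 * w := by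
    rw [← mul_add]
    rw [sz] at e5
    split_ifs at r3 e5
    · exact (pay ok r3.2 r2).trans (Nat.mul_le_mul_left _ (by omega))
    · exact (pay ok r3.2 r2).trans (Nat.mul_le_mul_left _ (by omega))
  rw [a4] at e3
  clear * - e3 a5 b5 k c1 c2 d2 d7 d8
  omega

/-- **The block BRIDGE.** -/
theorem bridge_of (h1 : PRUNE) (h2 : COMMIT) (h3 : CONTRACT) (h4 : SLOTS) (h5 : FLUSH) : BRIDGE :=
  fun β _ E =>
    let ⟨_, a⟩ := h1 β E
    let ⟨_, b⟩ := h2 β E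
    let ⟨_, c⟩ := h3 β E
    let ⟨_, d⟩ := h4 β E
    let ⟨_, e⟩ := h5 β E
    ⟨_, bridge_ok a b c d e⟩

end Vale.Agent.P305BG
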