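import Vale.Agent.P305C.Vt

/-!
# The doubling loop of tests
-/

namespace Vale.Agent.P305BG

open Vale.Agent.P305E Vale.Agent.P305C

variable {α γ : Type}

/-- Tests with the scales `ρ = U, U / 2, …, 1`, up to the first one that fails. -/
def dbl (test : ℕ → M (Option γ)) (U : ℕ) : M (Option γ) :=
  loopM (fun ρ => test ρ >>= fun r =>
    pure (if r.isSome = true ∨ ρ ≤ 1 then Sum.inr r else Sum.inl (ρ / 2))) (U + 1) U

theorem impl_dbl [Rep α] [Rep γ] {test : α → ℕ → M (Option γ)} {U : α → ℕ}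
    (ht : Impl fun p : α × ℕ => test p.1 p.2) (hU : Pure U) :
    Impl fun a => dbl (test a) (U a) := by
  unfold dbl
  fun_prop

/-- `W * ρ = U`: a test at the scale `ρ` costs `W * g`. -/
theorem dbl_vt {d B u g : ℕ} {test : ℕ → M (Option γ)} {Suc : ℕ → Prop} {Bad : ℕ → γ → Prop}
    (h : ∀ i j, i + j = u → Vt d B (test (2 ^ j)) fun r t =>
      r.elim (Suc (2 ^ j)) (Bad (2 ^ i)) ∧ t ≤ 2 ^ i * g) :
    Vt d B (dbl test (2 ^ u)) fun r t => r.elim (Suc 1 ∧ t ≤ 2 * 2 ^ u * (g + 1)) fun S =>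
      ∃ W ρ, W * ρ = 2 ^ u ∧ Bad W S ∧ (W = 1 ∨ Suc (2 * ρ)) ∧ t ≤ 2 * W * (g + 1) := by
  refine Vt.loopM (fun ρ t => ∃ i j, i + j = u ∧ ρ = 2 ^ j ∧ (i = 0 ∨ Suc (2 * ρ)) ∧
    t ≤ 2 ^ i * (g + 1)) id ?_ ⟨0, u, by simp, rfl, Or.inl rfl, by simp⟩ (by simp)
  rintro _ t ⟨i, j, e, rfl, h1, h2⟩
  refine (h i j e).bind fun r t' ⟨h3, h4⟩ => Vt.pure ?_
  have p : 1 ≤ 2 ^ i := Nat.one_le_two_pow
  have q : t + (t' + 0) + 1 ≤ 2 * 2 ^ i * (g + 1) := by nlinarith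
  cases r with
  | some S =>
    rw [if_pos (Or.inl (by simp))]
    refine ⟨2 ^ i, 2 ^ j, by rw [← pow_add, e], h3, h1.imp_left fun z => by simp [z], by omega⟩
  | none =>
    cases j with
    | zero =>
      rw [if_pos (Or.inr (by simp))]
      obtain rfl : i = u := e
      exact ⟨h3, by omega⟩
    | succ j =>
      have a : 2 ^ (j + 1) / 2 = 2 ^ j := by rw [pow_succ]; omega
      have b : 1 ≤ 2 ^ j := Nat.one_le_two_pow
      rw [if_neg (by rw [pow_succ]; simp; omega), a]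
      refine ⟨⟨i + 1, j, by omega, rfl, Or.inr ?_, by rw [pow_succ']; omega⟩, ?_⟩
      · rwa [← pow_succ']
      · simp only [id, pow_succ]
        omega

end Vale.Agent.P305BG
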