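import Vale.Agent.P305BG.Arcs
import Vale.Agent.P305BG.Dbl
import Vale.Agent.P305N.Basic

/-!
# What is done with a bridge
-/

namespace Vale.Agent.P305BG

open Vale.Agent.P305E Vale.Agent.P305C Vale.Agent.P305LC Vale.Agent.P305N Vale.Agent.P305BL Finset

/-- The volume of a piece. -/
def vs (vol : ℕ → ℕ) (D : Pc) : ℕ := (D.1.map vol).sum + (D.2.1.map vol).sum

/-- The number of names of a piece. -/
def ct (D : Pc) : ℕ := D.1.length + D.2.1.length

/-- The program for `vs`. -/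
def vsP (vol : ℕ → ℕ) (D : Pc) : M ℕ :=
  sumP vol D.1 >>= fun a => sumP vol D.2.1 >>= fun a' => num (a + a')

/-- `none`: commit. `some (D, none)`: remove `D`. `some (D, some (C, true))`: remove `D` and `C`.
`some (D, some (C, false))`: remove `D` and contract `C`. -/
abbrev Pl : Type := Option (Pc × Option (Pc × Bool))

/-- The part after a failed test. -/
def plan2 (bm : ℕ → List Tr → M (List Tr)) (b Vm : ℕ) (tl : Arr ℕ) (vol : ℕ → ℕ) (o o' : ℕ)
    (S : List ℕ × List ℕ) : M (Pc × Option (Pc × Bool)) :=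
  arcsP tl S.2 >>= fun E => dead bm b S.1 S.2 E >>= fun q =>
  anyP (fun p => decide (p = o ∨ p = o')) q.1.1 >>= fun z => vsP vol q.1 >>= fun v =>
  if z = true ∨ Vm ≤ v then pure (q.1, none) else
    bloss bm b q.2.2.1 q.2.2.2 o o' >>= fun C => vsP vol C >>= fun w =>
      pure (q.1, some (C, decide (Vm ≤ w)))

/-- The decision for the bridge between the nodes `o` and `o'`. -/
def plan (X : Ops) (bm : ℕ → List Tr → M (List Tr)) (b U Vm : ℕ) (s : NT) (vol : ℕ → ℕ)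
    (o o' : ℕ) : M Pl :=
  dbl (fun ρ => X.test b U s o o' ρ) U >>= fun r =>
    r.elim (pure none) fun S => plan2 bm b Vm s.tl vol o o' S >>= fun q => pure (some q)

section impl
variable {α : Type} [Rep α]

theorem impl_vsP {vol : α → ℕ → ℕ} {D : α → Pc} (hv : Pure fun p : α × ℕ => vol p.1 p.2)
    (hD : Pure D) : Impl fun a => vsP (vol a) (D a) := by
  unfold vsP
  fun_prop

theorem impl_plan2 {bm : ℕ → List Tr → M (List Tr)} (h : Impl fun p : ℕ × List Tr => bm p.1 p.2)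
    {b Vm o o' : α → ℕ} {tl : α → Arr ℕ} {vol : α → ℕ → ℕ} {S : α → List ℕ × List ℕ}
    (hb : Pure b) (hV : Pure Vm) (ho : Pure o) (ho' : Pure o') (ht : Pure tl)
    (hv : Pure fun p : α × ℕ => vol p.1 p.2) (hS : Pure S) :
    Impl fun a => plan2 bm (b a) (Vm a) (tl a) (vol a) (o a) (o' a) (S a) := by
  unfold plan2
  refine Impl.bind (by fun_prop) (Impl.bind (impl_dead h (by fun_prop) (by fun_prop) (by fun_prop)
    (by fun_prop)) (Impl.bind (by fun_prop) (Impl.bind (impl_vsP (by fun_prop) (by fun_prop))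
    (Impl.ite (by fun_prop) (by fun_prop) (Impl.bind (impl_bloss h (by fun_prop) (by fun_prop)
    (by fun_prop) (by fun_prop) (by fun_prop)) (Impl.bind (impl_vsP (by fun_prop) (by fun_prop))
    (by fun_prop)))))))

theorem impl_plan {X : Ops} {c : ℕ} {g : ℕ → ℕ} (hX : NetOK X c g)
    {bm : ℕ → List Tr → M (List Tr)} (h : Impl fun p : ℕ × List Tr => bm p.1 p.2)
    {b U Vm o o' : α → ℕ} {s : α → NT} {vol : α → ℕ → ℕ}
    (hb : Pure b) (hU : Pure U) (hV : Pure Vm) (ho : Pure o) (ho' : Pure o') (hs : Pure s)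
    (hv : Pure fun p : α × ℕ => vol p.1 p.2) :
    Impl fun a => plan X bm (b a) (U a) (Vm a) (s a) (vol a) (o a) (o' a) := by
  unfold plan
  refine Impl.bind (impl_dbl (hX.itest.comp (g := fun p : α × ℕ =>
    (b p.1, U p.1, s p.1, o p.1, o' p.1, p.2)) (by fun_prop)) hU) ?_
  exact Impl.optElim (by fun_prop) (by fun_prop) (Impl.bind (impl_plan2 h (by fun_prop)
    (by fun_prop) (by fun_prop) (by fun_prop) (by fun_prop) (by fun_prop) (by fun_prop))
    (by fun_prop))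

end impl

/-- What is needed from the programs `dead` and `bloss`. -/
structure SplOK (bm : ℕ → List Tr → M (List Tr)) (B b G : ℕ) : Prop where
  dead : ∀ P Y E, P.Nodup → Y.Nodup → (∀ e ∈ E, e.1 ∈ P ∧ e.2.2 ∈ Y) → 3 * P.length ≤ 2 ^ b →
    3 * Y.length ≤ 2 ^ b → E.length ≤ 2 ^ b → Vt b B (dead bm b P Y E) fun r t =>
      DeadRes P Y E r.1 r.2 ∧ t ≤ (P.length + Y.length + E.length + 1) * G
  bloss : ∀ P Y E o o', P.Nodup → Y.Nodup → (∀ e ∈ E, e.1 ∈ P ∧ e.2.2 ∈ Y) →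
    P.length = Y.length + 1 → (∀ Y' ⊆ Y.toFinset, Y'.Nonempty → Y'.card + 1 ≤ (Nb E Y').card) →
    o ∈ P → o' ∈ P → o ≠ o' → 3 * P.length ≤ 2 ^ b → 3 * Y.length ≤ 2 ^ b → E.length ≤ 2 ^ b →
    Vt b B (bloss bm b Y E o o') fun C t =>
      BloRes P Y E o o' C ∧ t ≤ (P.length + Y.length + E.length + 1) * G

/-- A closed set whose nodes can be matched. -/
structure DeadP (V : Vw) (D : Pc) : Prop where
  pc : Piece V D
  sat : ∃ l, IsM D.2.2 l ∧ l.length = D.1.length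
  le : D.1.length ≤ D.2.1.length

/-- `C` is a blossom after the removal of `D`. -/
structure BloP (V : Vw) (o o' : ℕ) (D C : Pc) : Prop where
  even : D.1.length = D.2.1.length
  pc : ∀ lk, Piece (V.del D.1.toFinset D.2.1.toFinset lk) C
  nodes : nodes C.2.2 = C.1.toFinset
  inns : inns C.2.2 = C.2.1.toFinset
  blo : Blo C.2.2 o o'
  len : C.1.length = C.2.1.length + 1
  two : 2 ≤ C.1.length
  mem : o ∈ C.1 ∧ o' ∈ C.1

/-- The result; `W` is paid by the volume of the junk or by the number of names that vanish. -/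
def Res2 (V : Vw) (Vm A : ℕ) (vol : ℕ → ℕ) (o o' W : ℕ) (q : Pc × Option (Pc × Bool)) : Prop :=
  DeadP V q.1 ∧ q.2.elim (0 < ct q.1 ∧ W ≤ A * vs vol q.1) fun z =>
    BloP V o o' q.1 z.1 ∧ vs vol q.1 < Vm ∧
      if z.2 = true then Vm ≤ vs vol z.1 ∧ W ≤ A * vs vol z.1
      else vs vol z.1 < Vm ∧ W ≤ A * (ct q.1 + ct z.1 - 1)

/-- The result of `plan`. -/
def PlanRes (V : Vw) (U κ Vm A G : ℕ) (vol : ℕ → ℕ) (o o' : ℕ) (r : Pl) (t : ℕ) : Prop :=
  r.elim (Succ V U κ o o' ∧ t ≤ U * G) fun q => ∃ W, Res2 V Vm A vol o o' W q ∧ t ≤ W * G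

variable {V : Vw} {vol : ℕ → ℕ} {D C : Pc} {al b B U Vm κ : ℕ} {s : NT}

/-- Stable states: the debts are bounded by the volumes. -/
structure Stab (V : Vw) (vol : ℕ → ℕ) (al B : ℕ) : Prop where
  dt : ∀ x, x ∈ V.I ∨ x ∈ V.P → V.dt x ≤ al * vol x
  pos : ∀ x, x ∈ V.I ∨ x ∈ V.P → 1 ≤ vol x
  sum : ∑ x ∈ V.P, vol x + ∑ x ∈ V.I, vol x ≤ B

theorem vs_eq (h : D.1.Nodup) (h' : D.2.1.Nodup) :
    vs vol D = ∑ x ∈ D.1.toFinset, vol x + ∑ x ∈ D.2.1.toFinset, vol x := by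
  rw [List.sum_toFinset _ h, List.sum_toFinset _ h', vs]

theorem Stab.facts (h : Stab V vol al B) (h1 : D.1.Nodup) (h2 : D.2.1.Nodup)
    (hP : D.1.toFinset ⊆ V.P) (hI : D.2.1.toFinset ⊆ V.I) :
    V.dts D.1.toFinset D.2.1.toFinset ≤ al * vs vol D ∧ ct D ≤ vs vol D ∧ vs vol D ≤ B := by
  rw [vs_eq h1 h2]
  refine ⟨?_, ?_, le_trans (add_le_add (sum_le_sum_of_subset hP) (sum_le_sum_of_subset hI)) h.sum⟩
  · rw [mul_add, mul_sum, mul_sum]
    exact add_le_add (sum_le_sum fun x hx => h.dt x (Or.inr (hP hx)))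
      (sum_le_sum fun x hx => h.dt x (Or.inl (hI hx)))
  · rw [ct, ← List.toFinset_card_of_nodup h1, ← List.toFinset_card_of_nodup h2, card_eq_sum_ones,
      card_eq_sum_ones]
    exact add_le_add (sum_le_sum fun x hx => h.pos x (Or.inr (hP hx)))
      (sum_le_sum fun x hx => h.pos x (Or.inl (hI hx)))

theorem vsP_tri {c : Cx} (h : vs vol D ≤ c.B) :
    Tri c (vsP vol D) fun v t => v = vs vol D ∧ t = ct D := by
  unfold vs at h
  simp only [vsP, Tri_bind, Tri_sumP, Tri_num]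
  exact ⟨by omega, by omega, h, rfl, rfl⟩

theorem dts_union {P0 Y0 P1 Y1 : Finset ℕ} (h : Disjoint P0 P1) (h' : Disjoint Y0 Y1) :
    V.dts (P0 ∪ P1) (Y0 ∪ Y1) = V.dts P0 Y0 + V.dts P1 Y1 := by
  simp only [Vw.dts, sum_union h, sum_union h']
  omega

theorem le_of_scale {W ρ a x : ℕ} (h : 0 < ρ) (e : W * ρ ≤ a * ρ + x) : W ≤ a + x := by
  refine Nat.le_of_mul_le_mul_right (e.trans ?_) h
  rw [add_mul]
  exact Nat.add_le_add_left (Nat.le_mul_of_pos_right _ h) _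

theorem ar_end {W ρ e p y d v : ℕ} (h : 0 < ρ) (he : 1 ≤ e)
    (a : W * ρ * e + W * ρ * y ≤ κ * (2 * ρ) * (p + y) + W * ρ * p + d) (h1 : p ≤ y)
    (h2 : d ≤ al * v) (h3 : p + y ≤ v) : W ≤ 8 * (κ + al + 1) * v := by
  have a1 := Nat.mul_le_mul_left (W * ρ) he
  have a2 := Nat.mul_le_mul_left (W * ρ) h1
  have a3 := Nat.mul_le_mul_left (κ * (2 * ρ)) h3
  have := le_of_scale (W := W) (a := 2 * κ * v) (x := al * v) h
    (by rw [show 2 * κ * v * ρ = κ * (2 * ρ) * v by ring]; omega)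
  nlinarith [Nat.zero_le (κ * v), Nat.zero_le (al * v)]

theorem ar_con {W ρ y y' d d' : ℕ} (h : 0 < ρ) (a : W * ρ * 2 + W * ρ * (y + y') ≤
    κ * (2 * ρ) * (y + (y' + 1) + (y + y')) + W * ρ * (y + (y' + 1)) + (d + d'))
    (h1 : 4 * d ≤ W * ρ) (h2 : 4 * d' ≤ W * ρ) (h3 : 1 ≤ y') :
    W ≤ 8 * (κ + al + 1) * (y + y + (y' + 1 + y') - 1) := by
  rw [show y + y + (y' + 1 + y') - 1 = 2 * (y + y') by omega]
  have e : W * ρ * (y + (y' + 1)) = W * ρ * (y + y') + W * ρ := by ring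
  have := le_of_scale (W := W) (a := 4 * κ * (y + (y' + 1) + (y + y'))) (x := 0) h
    (by rw [show 4 * κ * (y + (y' + 1) + (y + y')) * ρ =
      2 * (κ * (2 * ρ) * (y + (y' + 1) + (y + y'))) by ring]; omega)
  have a3 := Nat.mul_le_mul_left (4 * κ) (show y + (y' + 1) + (y + y') ≤ 4 * (y + y') by omega)
  nlinarith [Nat.zero_le (al * (y + y'))]

section cases
variable {W ρ o o' : ℕ} {Ps Ys : List ℕ} {E : List Tr} {L : Pc}

theorem res_dead (dD : DeadP V D) (hs : Stab V vol al B) (up : 0 < U) (h2 : U ≤ 8 * al * Vm)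
    (hW : W * ρ = U) (hp : W = 1 ∨ Succ V U (κ * (2 * ρ)) o o')
    (z : (o ∈ D.1 ∨ o' ∈ D.1) ∨ Vm ≤ vs vol D) :
    Res2 V Vm (8 * (κ + al + 1)) vol o o' W (D, none) := by
  have rp : 0 < ρ := Nat.pos_of_ne_zero fun z => by simp [z] at hW; omega
  have c := dD.pc.cls
  obtain ⟨f1, f2, -⟩ := hs.facts (D := D) c.1 c.2.1 c.2.2.sP c.2.2.sI
  refine ⟨dD, ?_⟩
  show 0 < ct D ∧ W ≤ 8 * (κ + al + 1) * vs vol D
  rcases z with z | z
  · have p0 : 0 < ct D := by
      have : 0 < D.1.length := z.elim List.length_pos_of_mem List.length_pos_of_mem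
      unfold ct
      omega
    refine ⟨p0, ?_⟩
    rcases hp with rfl | hp
    · exact Nat.mul_pos (by omega) (by omega)
    have a := hp _ _ c.2.2
    rw [List.toFinset_card_of_nodup c.1, List.toFinset_card_of_nodup c.2.1, ← hW] at a
    refine ar_end rp ?_ a dD.le f1 f2
    unfold ends
    rcases z with z | z <;> simp [z]
  · refine ⟨Nat.pos_of_ne_zero fun y => ?_, (Nat.le_mul_of_pos_right _ rp).trans
      (hW ▸ h2.trans (Nat.mul_le_mul (by omega) z))⟩
    have : vs vol D = 0 := by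
      unfold ct at y
      rw [vs, List.length_eq_zero_iff.1 (show D.1.length = 0 by omega),
        List.length_eq_zero_iff.1 (show D.2.1.length = 0 by omega)]
      rfl
    have : Vm = 0 := by omega
    simp [this] at h2
    omega

theorem small (h1 : 4 * al * Vm ≤ U) {v d : ℕ} (hv : v < Vm) (hd : d ≤ al * v) : 4 * d ≤ U :=
  le_trans (by rw [mul_assoc]; exact Nat.mul_le_mul_left _ (hd.trans (Nat.mul_le_mul_left _ hv.le)))
    h1

theorem res_key (hI : Inv b U V s) (dD : DeadP V D) (hs : Stab V vol al B) (h1 : 4 * al * Vm ≤ U)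
    (hd : DeadRes Ps Ys E D L) (hf : U * Ps.length + V.dts Ps.toFinset Ys.toFinset <
      U * Ys.length + U * ends o o' Ps.toFinset) (z : o ∉ D.1) (z' : o' ∉ D.1)
    (z2 : vs vol D < Vm) :
    D.1.length = D.2.1.length ∧ o ∈ L.1 ∧ o' ∈ L.1 ∧ L.1.length = L.2.1.length + 1 := by
  have up := hI.upos
  have c := dD.pc.cls
  have s1 := small h1 z2 (hs.facts (D := D) c.1 c.2.1 c.2.2.sP c.2.2.sI).1
  have lP := hd.lenP
  have lY := hd.lenY
  have dl := dD.le
  have ev : D.1.length = D.2.1.length := by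
    have a := hI.hall c.2.2
    rw [List.toFinset_card_of_nodup c.1, List.toFinset_card_of_nodup c.2.1] at a
    have : U * D.2.1.length < U * (D.1.length + 1) := by
      rw [mul_add]
      dsimp only at a
      omega
    have := Nat.lt_of_mul_lt_mul_left this
    omega
  have lt : Ps.length < Ys.length + ends o o' Ps.toFinset :=
    Nat.lt_of_mul_lt_mul_left (a := U) (by rw [mul_add]; omega)
  unfold ends at lt
  simp only [List.mem_toFinset] at lt
  rcases hd.sig with ⟨a, a'⟩ | a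
  · have n1 : o ∉ Ps := fun y => by simpa [a] using (hd.parP o y).2 z
    have n2 : o' ∉ Ps := fun y => by simpa [a] using (hd.parP o' y).2 z'
    simp only [a, a', List.length_nil] at lP lY
    rw [if_neg n1, if_neg n2] at lt
    omega
  · split_ifs at lt with y y' y'
    · exact ⟨ev, (hd.parP o y).2 z, (hd.parP o' y').2 z', by omega⟩
    all_goals omega

theorem res_blo (dD : DeadP V D) (bC : BloP V o o' D C) (hs : Stab V vol al B) (up : 0 < U)
    (h1 : 4 * al * Vm ≤ U) (h2 : U ≤ 8 * al * Vm) (hW : W * ρ = U)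
    (hp : W = 1 ∨ Succ V U (κ * (2 * ρ)) o o') (z2 : vs vol D < Vm) :
    Res2 V Vm (8 * (κ + al + 1)) vol o o' W (D, some (C, decide (Vm ≤ vs vol C))) := by
  have rp : 0 < ρ := Nat.pos_of_ne_zero fun z => by simp [z] at hW; omega
  have c := dD.pc.cls
  have c' := (bC.pc []).cls
  obtain ⟨u1, u2, u3⟩ := cls_union c.2.2 c'.2.2
  refine ⟨dD, bC, z2, ?_⟩
  simp only [decide_eq_true_eq]
  split_ifs with y
  · exact ⟨y, (Nat.le_mul_of_pos_right _ rp).trans (hW ▸ h2.trans (Nat.mul_le_mul (by omega) y))⟩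
  refine ⟨not_le.1 y, ?_⟩
  have two := bC.two
  have g1 := bC.len
  rcases hp with rfl | hp
  · exact Nat.mul_pos (by omega) (by unfold ct; omega)
  have s1 := small h1 z2 (hs.facts (D := D) c.1 c.2.1 c.2.2.sP c.2.2.sI).1
  have s2 := small h1 (not_le.1 y) (hs.facts (D := C) c'.1 c'.2.1
    (subset_union_right.trans u1.sP) (subset_union_right.trans u1.sI)).1
  have a := hp _ _ u1
  have a' : ends o o' (D.1.toFinset ∪ C.1.toFinset) = 2 := by simp [ends, bC.mem.1, bC.mem.2]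
  rw [a', dts_union u2 u3, card_union_of_disjoint u2, card_union_of_disjoint u3,
    List.toFinset_card_of_nodup c.1, List.toFinset_card_of_nodup c.2.1,
    List.toFinset_card_of_nodup c'.1, List.toFinset_card_of_nodup c'.2.1] at a
  dsimp only at a
  rw [g1, bC.even, ← hW] at a
  unfold ct
  rw [g1, bC.even]
  exact ar_con rp a (hW ▸ s1) (hW ▸ s2) (by omega)

theorem BloP.vs_le (dD : DeadP V D) (bC : BloP V o o' D C) (hs : Stab V vol al B) :
    vs vol C ≤ B := by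
  have c' := (bC.pc []).cls
  obtain ⟨u1, -, -⟩ := cls_union dD.pc.cls.2.2 c'.2.2
  exact (hs.facts (D := C) c'.1 c'.2.1 (subset_union_right.trans u1.sP)
    (subset_union_right.trans u1.sI)).2.2

theorem ar_time {x G t a e : ℕ} (h : t ≤ (a + e + 1) * G) (h1 : a ≤ x) (h2 : e ≤ 3 * x) :
    t ≤ (x + 1) * (4 * G) := h.trans (by rw [← mul_assoc]; exact Nat.mul_le_mul_right _ (by omega))

theorem plan2_vt {bm : ℕ → List Tr → M (List Tr)} {G : ℕ}
    (hb : SplOK bm B b G) (hI : Inv b U V s) (hs : Stab V vol al B) (hB : 2 ^ b ≤ B)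
    (h1 : 4 * al * Vm ≤ U) (h2 : U ≤ 8 * al * Vm) (hne : o ≠ o') (hW : W * ρ = U)
    (hS : ClsL V (Ps, Ys)) (hf : U * Ps.length + V.dts Ps.toFinset Ys.toFinset <
      U * Ys.length + U * ends o o' Ps.toFinset) (hp : W = 1 ∨ Succ V U (κ * (2 * ρ)) o o') :
    Vt b B (plan2 bm b Vm s.tl vol o o' (Ps, Ys)) fun q t =>
      Res2 V Vm (8 * (κ + al + 1)) vol o o' W q ∧
        t ≤ (Ps.length + Ys.length + 1) * (8 * G + 4) := by
  obtain ⟨l1, l2⟩ := clsL_len hI.ok hS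
  refine Vt.tbind (cn := true) (arcsP_tri s.tl hS.2.1 fun y hy => ?_) fun E t1 ⟨hE, e1⟩ => ?_
  · exact (hI.ok.ltI y (hS.2.2.sI (by simpa using hy))).le.trans hB
  rw [hI.tl] at hE
  have l3 := hE.len'
  dsimp only at l3 e1
  refine (hb.dead Ps Ys E hS.1 hS.2.1 (hE.sub hS) l1 l2 (by omega)).bind ?_
  rintro ⟨D, L⟩ t2 ⟨hd, e2⟩
  dsimp only at hd ⊢
  have pD := dead_piece hS hE hd
  have dD : DeadP V D := ⟨pD, hd.sat, dead_len hd⟩
  have lP := hd.lenP
  have lY := hd.lenY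
  have e2' := ar_time (x := Ps.length + Ys.length) e2 le_rfl (by omega)
  have eq : (Ps.length + Ys.length + 1) * (8 * G + 4) = 2 * ((Ps.length + Ys.length + 1) * (4 * G))
    + 4 * (Ps.length + Ys.length + 1) := by ring
  rw [eq]
  refine Vt.tbind' ?_
  rw [Tri_anyP]
  refine Vt.tbind (cn := true) (vsP_tri (hs.facts pD.cls.1 pD.cls.2.1 pD.cls.2.2.sP
    pD.cls.2.2.sI).2.2) ?_
  rintro _ _ ⟨rfl, rfl⟩
  have zz : (D.1.any fun p => decide (p = o ∨ p = o')) = true ↔ o ∈ D.1 ∨ o' ∈ D.1 := by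
    simp only [List.any_eq_true, decide_eq_true_eq]
    exact ⟨fun ⟨p, hq, y⟩ => y.imp (fun e : p = o => e ▸ hq) (fun e : p = o' => e ▸ hq),
      fun y => y.elim (⟨o, ·, Or.inl rfl⟩) (⟨o', ·, Or.inr rfl⟩)⟩
  refine Vt.ite (fun z => Vt.pure ⟨res_dead dD hs hI.upos h2 hW hp (z.imp_left zz.1),
    by unfold ct; omega⟩) fun z => ?_
  rw [zz, not_or, not_or, not_le] at z
  obtain ⟨k1, k2, k3, k4⟩ := res_key hI dD hs h1 hd hf z.1.1 z.1.2 z.2
  have nY := hS.2.1.sublist hd.subY.2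
  have lE := hd.subE.2.length_le
  refine (hb.bloss L.1 L.2.1 L.2.2 o o' (hS.1.sublist hd.subP.2) nY
    (fun e he => ⟨((hd.arcL e).1 he).2, hd.head e he⟩) k4 hd.surplus k2 k3 hne (by omega)
    (by omega) (by omega)).bind fun C t3 ⟨hc, e3⟩ => ?_
  have e3' := ar_time (x := Ps.length + Ys.length) e3 (by omega) (by omega)
  obtain ⟨g1, g2, g3⟩ := blo_len nY hc
  have two : 2 ≤ C.1.length := by
    have := (List.subperm_of_subset (l₁ := [o, o']) (l₂ := C.1) (by simp [hne])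
      (by simp [g2, g3])).length_le
    simpa using this
  have bC : BloP V o o' D C :=
    ⟨k1, blo_piece hS hE hd hc, hc.nodes, hc.inns, hc.blo, g1, two, g2, g3⟩
  have lC := hc.subY.length_le
  refine Vt.tbind (cn := true) (vsP_tri (bC.vs_le dD hs)) ?_
  rintro _ _ ⟨rfl, rfl⟩
  exact Vt.pure ⟨res_blo dD bC hs hI.upos h1 h2 hW hp z.2, by unfold ct; omega⟩

end cases

/-- **The decision.** -/
theorem plan_vt {X : Ops} {c u : ℕ} {g : ℕ → ℕ} (hX : NetOK X c g)
    {bm : ℕ → List Tr → M (List Tr)} {G o o' : ℕ} (hb : SplOK bm B b G) (hI : Inv b U V s)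
    (hs : Stab V vol al B) (hd : ∀ p ∈ V.P, V.dt p ≤ 2 ^ b) (hB : 2 ^ b ≤ B)
    (hB' : 2 ^ (c * (b + 1)) ≤ B) (hU : U = 2 ^ u) (h1 : 4 * al * Vm ≤ U) (h2 : U ≤ 8 * al * Vm)
    (ho : o ∈ V.P) (ho' : o' ∈ V.P) (hne : o ≠ o') :
    Vt b B (plan X bm b U Vm s vol o o')
      (PlanRes V U (g b) Vm (8 * (g b + al + 1)) (20 * (g b + 1) * (G + 1)) vol o o') := by
  subst hU
  refine (dbl_vt (g := 2 * g b) (Suc := fun ρ => Succ V (2 ^ u) (g b * ρ) o o')
    (Bad := fun W S => ClsL V S ∧ 2 ^ u * S.1.length + V.dts S.1.toFinset S.2.toFinset <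
      2 ^ u * S.2.length + 2 ^ u * ends o o' S.1.toFinset ∧
      S.1.length + S.2.length ≤ W * (2 * g b)) fun i j e => ?_).bind fun r t hr => ?_
  · have a : 2 ^ u / 2 ^ j = 2 ^ i := by rw [← e, pow_add, Nat.mul_div_cancel _ (by positivity)]
    have p : 1 ≤ 2 ^ i := Nat.one_le_two_pow
    have q : (2 ^ i + 1) * g b ≤ 2 ^ i * (2 * g b) := by nlinarith
    refine (hX.test B b _ V s o o' (2 ^ j) hI hd ho ho' hne Nat.one_le_two_pow
      (Nat.pow_le_pow_right (by norm_num) (by omega)) hB').mono fun r t h => ?_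
    unfold TestRes at h
    rw [a] at h
    cases r with
    | none => exact ⟨h.1, h.2.trans q⟩
    | some S => exact ⟨⟨h.1, h.2.1, by have := h.2.2; omega⟩, by have := h.2.2; omega⟩
  cases r with
  | none =>
    refine Vt.pure ⟨by simpa using hr.1, ?_⟩
    have := hr.2
    nlinarith [Nat.zero_le (2 ^ u * g b * G), Nat.zero_le (2 ^ u * G), Nat.zero_le (2 ^ u * g b)]
  | some S =>
    obtain ⟨W, ρ, e, ⟨a1, a2, a3⟩, a4, a5⟩ := hr
    have p : 1 ≤ W := Nat.pos_of_ne_zero fun z => by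
      rw [z, zero_mul] at e
      exact (pow_pos two_pos u).ne e
    refine (plan2_vt (Ps := S.1) (Ys := S.2) hb hI hs hB h1 h2 hne e a1 a2 a4).bind fun q t' ⟨b1, b2⟩ => Vt.pure ⟨W, b1, ?_⟩
    have := Nat.mul_le_mul_right (8 * G + 4) (show S.1.length + S.2.length + 1 ≤
      W * (2 * g b + 1) by rw [mul_add]; omega)
    nlinarith [Nat.zero_le (W * g b * G), Nat.zero_le (W * G), Nat.zero_le (W * g b)]

end Vale.Agent.P305BG
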